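import Vale.Agent.P199.Ultra

/-!
The Kurosh problem for division rings has a negative answer: there is a division ring of
characteristic zero, algebraic over its centre, generated as an algebra over its centre by two
elements, and of infinite dimension over its centre.
-/

theorem Vale.Agent.Results.P199.KuroshDisproof.result :
    ∃ (D : Type) (_ : DivisionRing D), CharZero D ∧
      (∀ x : D, IsAlgebraic (Subring.center D) x) ∧
      ∃ a b : D, Algebra.adjoin (Subring.center D) ({a, b} : Set D) = ⊤ ∧
        ¬ Module.Finite (Subring.center D) D :=
  Vale.Agent.P199.kurosh_counterexample
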